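import Vale.Agent.P073.R2.H580.Weak
import Vale.Agent.P073.R2.H580.Defs
import Vale.Agent.P073.MM.H694.Pert
import Vale.Agent.P073.H694.GlueC

/-!
# P073: fibrewise monotone maps of domains: fine approximation
-/

namespace Vale.Agent.P073.R2.H580

open MeasureTheory Set Filter Topology Metric Vale.Agent.P073.St Vale.Agent.P073.AB
open Vale.Agent.P073.SQ (ev)
open Vale.Agent.P073.MM
open Vale.Agent.P073.MM.H694 (rpow_add3_le lip_of_kappa)
open scoped ContDiff ENNReal

/-- the subspace of the vectors `h` with `h_j = 0` off `I` -/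
def Ds (I : Finset (Fin 3)) : Submodule ℝ V where
  carrier := {h | ∀ j ∉ I, h j = 0}
  add_mem' := fun {a b} ha hb j hj => by
    show a j + b j = 0
    rw [ha j hj, hb j hj, add_zero]
  zero_mem' := fun _ _ => rfl
  smul_mem' := fun c a ha j hj => by
    show c * a j = 0
    rw [ha j hj, mul_zero]

theorem mem_Ds {I : Finset (Fin 3)} {h : V} : h ∈ Ds I ↔ ∀ j ∉ I, h j = 0 := Iff.rfl

/-- the projection to the coordinates in `I` -/
noncomputable def pr (I : Finset (Fin 3)) : V →L[ℝ] V :=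
  ContinuousLinearMap.pi fun i => if i ∈ I then ContinuousLinearMap.proj i else 0

theorem pr_apply (I : Finset (Fin 3)) (v : V) (i : Fin 3) :
    pr I v i = if i ∈ I then v i else 0 := by
  unfold pr
  rw [ContinuousLinearMap.pi_apply]
  split_ifs <;> rfl

theorem pr_norm_le (I : Finset (Fin 3)) (v : V) : ‖pr I v‖ ≤ ‖v‖ := by
  refine (pi_norm_le_iff_of_nonneg (norm_nonneg _)).2 fun i => ?_
  rw [pr_apply]
  split_ifs
  · exact norm_le_pi_norm v i
  · rw [norm_zero]; exact norm_nonneg _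

theorem pr_op_le (I : Finset (Fin 3)) : ‖pr I‖ ≤ 1 :=
  ContinuousLinearMap.opNorm_le_bound _ zero_le_one fun v => by
    rw [one_mul]; exact pr_norm_le I v

theorem pr_mem {I : Finset (Fin 3)} {h : V} (hh : h ∈ Ds I) : pr I h = h := by
  funext i
  rw [pr_apply]
  split_ifs with hi
  · rfl
  · exact (hh i hi).symm

/-- **smoothing of a fibrewise monotone map** -/
theorem smoothI {I : Finset (Fin 3)} {p : ℝ} {U : Set V} {f : V → V} {F : V → Mat} (hp : 1 ≤ p)
    (hU : IsOpen U) (hUb : Bornology.IsBounded U) (hf : ContinuousOn f U)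
    (hF : St.IsSobolev p U f F) (hm : FibMonotone I U f) {e : V → ℝ} (he : ContinuousOn e U)
    (he0 : ∀ x ∈ U, 0 < e x) {ε : ℝ} (hε : 0 < ε) :
    ∃ g : V → V, ContDiffOn ℝ ∞ g U ∧ (∀ x ∈ U, ‖g x - f x‖ ≤ e x) ∧
      ∫⁻ x in U, ENNReal.ofReal (‖fderiv ℝ g x - cl (F x)‖ ^ p) ≤ ENNReal.ofReal ε ∧
      ∀ x ∈ U, ∀ h, (∀ j ∉ I, fderiv ℝ g x h j = 0) →
        h ∈ Ds I ∧ -(e x) * ‖h‖ ^ 2 ≤ ∑ i, h i * fderiv ℝ g x h i := by
  have hp0 : 0 ≤ p := by linarith
  have hv : volume U ≠ ⊤ := hUb.measure_lt_top.ne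
  obtain ⟨hs, hk, hmon⟩ := hm
  have hM : MonIn (Ds I) U f := by
    intro a ha
    obtain ⟨r, hr, h1⟩ := hmon a ha
    refine ⟨r, hr, fun x y hx hy hD => h1 x y hx hy fun j hj => ?_⟩
    have := hD j hj
    rw [Pi.sub_apply] at this
    linarith
  obtain ⟨g, hgs, hge, hgE, hgm⟩ := smooth H307.mollLp hp hU hUb hf hF
    (psd hp hU hf hF hM) he he0 hε
  set y : V → V := fun x i => if i ∈ I then g x i else f x i with hy
  have hyi : ∀ i ∈ I, (fun x => y x i) = fun x => g x i := fun i hi => by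
    funext x; rw [hy]; simp only [hi, if_true]
  have hyj : ∀ j ∉ I, (fun x => y x j) = fun x => f x j := fun i hi => by
    funext x; rw [hy]; simp only [hi, if_false]
  have hys : ContDiffOn ℝ ∞ y U := by
    refine contDiffOn_pi.2 fun i => ?_
    by_cases hi : i ∈ I
    · rw [hyi i hi]; exact contDiffOn_pi.1 hgs i
    · rw [hyj i hi]; exact hs i hi
  have hyd : ∀ x ∈ U, HasFDerivAt y (fderiv ℝ y x) x := fun x hx =>
    ((hys.contDiffAt (hU.mem_nhds hx)).differentiableAt (by simp)).hasFDerivAt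
  have hgd : ∀ x ∈ U, HasFDerivAt g (fderiv ℝ g x) x := fun x hx =>
    ((hgs.contDiffAt (hU.mem_nhds hx)).differentiableAt (by simp)).hasFDerivAt
  have d1 : ∀ x ∈ U, ∀ i ∈ I, ∀ h, fderiv ℝ y x h i = fderiv ℝ g x h i := by
    intro x hx i hi h
    have h1 := (hasFDerivAt_pi'.1 (hyd x hx)) i
    have h2 := (hasFDerivAt_pi'.1 (hgd x hx)) i
    rw [hyi i hi] at h1
    exact congrArg (fun L : V →L[ℝ] ℝ => L h) (h1.unique h2)
  have d2 : ∀ x ∈ U, ∀ j ∉ I, ∀ h, fderiv ℝ y x h j = fderiv ℝ (fun z => f z j) x h := by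
    intro x hx j hj h
    have h1 := (hasFDerivAt_pi'.1 (hyd x hx)) j
    rw [hyj j hj] at h1
    rw [h1.fderiv]
    rfl
  refine ⟨y, hys, fun x hx => ?_, ?_, fun x hx h hh => ?_⟩
  · refine (pi_norm_le_iff_of_nonneg (he0 x hx).le).2 fun i => ?_
    by_cases hi : i ∈ I
    · have : (y x - f x) i = (g x - f x) i := by
        rw [Pi.sub_apply, Pi.sub_apply, hy]; simp only [hi, if_true]
      rw [this]
      exact (norm_le_pi_norm _ i).trans (hge x hx)
    · have : (y x - f x) i = 0 := by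
        rw [Pi.sub_apply, hy]; simp only [hi, if_false, sub_self]
      rw [this, norm_zero]
      exact (he0 x hx).le
  · refine le_trans (lintegral_mono_ae ?_) hgE
    have hall : ∀ᵐ x ∂(volume : Measure V), ∀ i j, i ∉ I → x ∈ U →
        F x i j = fderiv ℝ (fun z => f z i) x (ev j) := by
      rw [ae_all_iff]
      intro i
      rw [ae_all_iff]
      intro j
      by_cases hi : i ∈ I
      · exact Eventually.of_forall fun x h => absurd hi h
      · filter_upwards [ae_comp hp hv hF hU Subset.rfl i (hs i hi) j] with x hx _ hxU using hx hxU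
    rw [ae_restrict_iff' hU.measurableSet]
    filter_upwards [hall] with x hx hxU
    apply ENNReal.ofReal_le_ofReal
    apply Real.rpow_le_rpow (norm_nonneg _) _ hp0
    refine ContinuousLinearMap.opNorm_le_bound _ (norm_nonneg _) fun h => ?_
    refine (pi_norm_le_iff_of_nonneg (by positivity)).2 fun i => ?_
    by_cases hi : i ∈ I
    · have e1 : (fderiv ℝ y x - cl (F x)) h i = (fderiv ℝ g x - cl (F x)) h i := by
        rw [ContinuousLinearMap.sub_apply, ContinuousLinearMap.sub_apply, Pi.sub_apply,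
          Pi.sub_apply, d1 x hxU i hi]
      rw [e1]
      exact (norm_le_pi_norm _ i).trans (ContinuousLinearMap.le_opNorm _ _)
    · have e1 : (fderiv ℝ y x - cl (F x)) h i = 0 := by
        rw [ContinuousLinearMap.sub_apply, Pi.sub_apply, d2 x hxU i hi, PK.cl_apply]
        have h2 : fderiv ℝ (fun z => f z i) x h =
            ∑ j, h j * fderiv ℝ (fun z => f z i) x (ev j) := by
          conv_lhs => rw [pi_eq_sum_univ' h]
          rw [map_sum]
          apply Finset.sum_congr rfl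
          intro j _
          rw [map_smul, smul_eq_mul]
          rfl
        rw [h2, ← Finset.sum_sub_distrib]
        refine Finset.sum_eq_zero fun j _ => ?_
        rw [hx i j hi hxU]
        ring
      rw [e1, norm_zero]
      positivity
  · have hD : h ∈ Ds I := by
      refine hk x hx h fun j hj => ?_
      rw [← d2 x hx j hj]
      exact hh j hj
    refine ⟨hD, (hgm x hx h hD).trans (le_of_eq ?_)⟩
    refine Finset.sum_congr rfl fun i _ => ?_
    by_cases hi : i ∈ I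
    · rw [d1 x hx i hi]
    · rw [hD i hi, zero_mul, zero_mul]

/-- the perturbation, with a function `δ₀` in place of row C -/
theorem pert_of {I : Finset (Fin 3)} {p : ℝ} {U W : Set V} {f : V → V} {F : V → Mat}
    (hp : 1 ≤ p) (hU : IsOpen U) (hUb : Bornology.IsBounded U) (hW : IsOpen W)
    (hWc : Wᶜ.Nonempty) (hf : St.IsHomeo U W f) (hF : St.IsSobolev p U f F)
    (hmon : FibMonotone I U f) {δ₀ : V → ℝ} (hδ₀ : ContinuousOn δ₀ U) (hδ₀0 : ∀ x ∈ U, 0 < δ₀ x)
    (hN : ∀ g : V → V, ContDiffOn ℝ ∞ g U → (∀ x ∈ U, ∀ v, fderiv ℝ g x v = 0 → v = 0) →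
      (∀ x ∈ U, ‖g x - f x‖ ≤ δ₀ x) → St.IsDiffeo U W g) :
    _root_.Vale.Agent.P073.H694.FA p U W f F := by
  intro σ hσ hσ0 ε hε
  have hp0 : 0 < p := by linarith
  have hev : ∀ j, ‖ev j‖ = 1 := fun j => by unfold ev; rw [Pi.norm_single]; simp
  obtain ⟨k, ⟨hk1, hk2⟩, hfc, hkc⟩ := id hf
  obtain ⟨R, hR1, hR⟩ : ∃ R : ℝ, 1 ≤ R ∧ ∀ x ∈ U, ‖x‖ ≤ R := by
    obtain ⟨R, hR⟩ := hUb.exists_norm_le
    exact ⟨max R 1, le_max_right _ _, fun x hx => (hR x hx).trans (le_max_left _ _)⟩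
  have hR0 : 0 < R := by linarith
  have hv : volume U ≠ ⊤ := hUb.measure_lt_top.ne
  set EF : ℝ≥0∞ := ∫⁻ x in U, ENNReal.ofReal (‖cl (F x)‖ ^ p) with hEF
  have hFe : EF ≠ ⊤ := by
    have h1 := PK.IsSob.lintegral_ne_top hp hF
    simp_rw [hEF, ofReal_norm_rpow hp0.le]
    exact h1
  -- the constant `t`
  obtain ⟨t, ht, ht1, htε⟩ : ∃ t : ℝ, 0 < t ∧ t ≤ 1 ∧ ENNReal.ofReal (t ^ p) * volume U +
      3 * (ENNReal.ofReal (3 ^ p) * (ENNReal.ofReal (2 ^ p) * ENNReal.ofReal t +
        ENNReal.ofReal (t ^ p) * EF + ENNReal.ofReal (t ^ p) * volume U)) ≤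
          ENNReal.ofReal ε := by
    have t0 : Tendsto (fun n : ℕ => 1 / ((n : ℝ) + 1)) atTop (𝓝 0) :=
      tendsto_one_div_add_atTop_nhds_zero_nat
    have t1 : Tendsto (fun n : ℕ => ENNReal.ofReal (1 / ((n : ℝ) + 1))) atTop (𝓝 0) := by
      simpa using ENNReal.tendsto_ofReal t0
    have t2 : Tendsto (fun n : ℕ => ENNReal.ofReal ((1 / ((n : ℝ) + 1)) ^ p)) atTop (𝓝 0) := by
      have h2 : Tendsto (fun n : ℕ => (1 / ((n : ℝ) + 1)) ^ p) atTop (𝓝 (0 ^ p)) :=
        t0.rpow_const (Or.inr hp0.le)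
      rw [Real.zero_rpow hp0.ne'] at h2
      simpa using ENNReal.tendsto_ofReal h2
    have t3 := ENNReal.Tendsto.mul_const (b := volume U) t2 (Or.inr hv)
    rw [zero_mul] at t3
    have t4 := ENNReal.Tendsto.mul_const (b := EF) t2 (Or.inr hFe)
    rw [zero_mul] at t4
    have t5 := ENNReal.Tendsto.const_mul (a := ENNReal.ofReal (2 ^ p)) t1
      (Or.inr ENNReal.ofReal_ne_top)
    rw [mul_zero] at t5
    have t6 := ENNReal.Tendsto.const_mul (a := ENNReal.ofReal (3 ^ p)) ((t5.add t4).add t3)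
      (Or.inr ENNReal.ofReal_ne_top)
    have t7 := t3.add (ENNReal.Tendsto.const_mul (a := 3) t6 (Or.inr (by norm_num)))
    simp only [add_zero, mul_zero] at t7
    obtain ⟨n, hn⟩ := (t7.eventually (gt_mem_nhds (ENNReal.ofReal_pos.2 hε))).exists
    refine ⟨1 / ((n : ℝ) + 1), by positivity, ?_, hn.le⟩
    rw [div_le_one (by positivity)]
    have : (0 : ℝ) ≤ n := Nat.cast_nonneg n
    linarith
  -- the closeness
  set s : V → ℝ := fun x => min (min (σ x) t)
    (min (δ₀ x) ((1 / 4) * min (infDist (f x) Wᶜ) 1)) with hs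
  have hdc : ContinuousOn (fun x => infDist (f x) Wᶜ) U :=
    (continuous_infDist_pt _).comp_continuousOn hfc
  have hdpos : ∀ x ∈ U, 0 < infDist (f x) Wᶜ := fun x hx =>
    (hW.isClosed_compl.notMem_iff_infDist_pos hWc).1 fun h => h (hk1 x hx).1
  have hsc : ContinuousOn s U :=
    (hσ.inf continuousOn_const).inf
      (hδ₀.inf (continuousOn_const.mul (hdc.inf continuousOn_const)))
  have hs0 : ∀ x ∈ U, 0 < s x := fun x hx =>
    lt_min (lt_min (hσ0 x hx) ht)
      (lt_min (hδ₀0 x hx) (mul_pos (by norm_num) (lt_min (hdpos x hx) one_pos)))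
  have hkm : MapsTo k W U := fun y hy => (hk2 y hy).1
  set δ : V → ℝ := fun y => min (t / (24 * R)) (s (k y) / (8 * R)) with hδ
  have hδc : ContinuousOn δ W := continuousOn_const.inf ((hsc.comp hkc hkm).div_const _)
  have hδ0 : ∀ y ∈ W, 0 < δ y := fun y hy =>
    lt_min (by positivity) (div_pos (hs0 _ (hkm hy)) (by positivity))
  obtain ⟨κ, hκs, hκ, hκ0⟩ := Vale.Agent.P073.exists_kappa hW hδc hδ0
  have hδt : ∀ y, δ y ≤ t / (24 * R) := fun y => min_le_left _ _
  have hδt1 : t / (24 * R) ≤ t / 24 := by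
    apply div_le_div_of_nonneg_left ht.le (by norm_num)
    linarith
  have hlip := lip_of_kappa (W := W) hκs (fun y hy => ⟨(hκ y hy).1, by
    have h1 := (hκ y hy).2.2.le
    have h2 := hδt y
    linarith⟩) hκ0
  set e : V → ℝ := fun x => min (s x / 8) (κ (f x) / 4) with he
  have hec : ContinuousOn e U := (hsc.div_const 8).inf
    ((hκs.continuous.comp_continuousOn hfc).div_const 4)
  have he0 : ∀ x ∈ U, 0 < e x := fun x hx =>
    lt_min (by have := hs0 x hx; linarith) (by have := (hκ _ (hk1 x hx).1).1; linarith)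
  obtain ⟨g, hgs, hge, hgE, hgm⟩ := smoothI hp hU hUb hfc hF hmon hec he0 ht
  set P : V → V := fun x => g x + κ (g x) • pr I x with hP
  -- facts at the points
  have hgW : ∀ x ∈ U, g x ∈ W := by
    intro x hx
    by_contra hc
    have h1 := infDist_le_dist_of_mem (x := f x) (show g x ∈ Wᶜ from hc)
    rw [dist_eq_norm, norm_sub_rev] at h1
    have h2 := (hge x hx).trans (min_le_left _ _)
    have h3 : s x ≤ (1 / 4) * infDist (f x) Wᶜ :=
      (min_le_right _ _).trans ((min_le_right _ _).trans (by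
        gcongr
        exact min_le_left _ _))
    have h4 := hdpos x hx
    linarith
  have hκg : ∀ x ∈ U, 3 * e x ≤ κ (g x) ∧ κ (g x) ≤ 2 * κ (f x) := by
    intro x hx
    have h1 := hlip (g x) (f x)
    have h2 := (hge x hx)
    have h3 : e x ≤ κ (f x) / 4 := min_le_right _ _
    have h4 := (hκ _ (hk1 x hx).1).1
    rw [abs_le] at h1
    constructor <;> linarith [h1.1, h1.2]
  have hκf : ∀ x ∈ U, κ (f x) ≤ s x / (8 * R) := by
    intro x hx
    have h1 := (hκ _ (hk1 x hx).1).2.1.le.trans (min_le_right _ _)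
    rwa [(hk1 x hx).2] at h1
  have hPf : ∀ x ∈ U, ‖P x - f x‖ ≤ s x := by
    intro x hx
    have h1 : P x - f x = (g x - f x) + κ (g x) • pr I x := by
      show g x + κ (g x) • pr I x - f x = _
      exact add_sub_right_comm _ _ _
    rw [h1]
    refine (norm_add_le _ _).trans ?_
    rw [norm_smul, Real.norm_of_nonneg ((hκ _ (hgW x hx)).1.le)]
    have h2 := (hge x hx).trans (min_le_left _ _)
    have h3 : κ (g x) * ‖pr I x‖ ≤ (2 * (s x / (8 * R))) * R := by
      apply mul_le_mul ((hκg x hx).2.trans (by linarith [hκf x hx]))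
        ((pr_norm_le I x).trans (hR x hx)) (norm_nonneg _)
      have := hs0 x hx
      positivity
    have h4 : (2 * (s x / (8 * R))) * R = s x / 4 := by field_simp; ring
    have := hs0 x hx
    linarith
  have hgd : ∀ x ∈ U, HasFDerivAt g (fderiv ℝ g x) x := fun x hx =>
    ((hgs.contDiffAt (hU.mem_nhds hx)).differentiableAt (by simp)).hasFDerivAt
  have hPd : ∀ x ∈ U, HasFDerivAt P (fderiv ℝ g x + (κ (g x) • pr I +
      ((fderiv ℝ κ (g x)).comp (fderiv ℝ g x)).smulRight (pr I x))) x := by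
    intro x hx
    have h1 : HasFDerivAt κ (fderiv ℝ κ (g x)) (g x) :=
      (hκs.differentiable (by simp)).differentiableAt.hasFDerivAt
    have h2 : HasFDerivAt (fun z => κ (g z)) ((fderiv ℝ κ (g x)).comp (fderiv ℝ g x)) x :=
      h1.comp x (hgd x hx)
    exact (hgd x hx).add (h2.smul (pr I).hasFDerivAt)
  have hPs : ContDiffOn ℝ ∞ P U :=
    hgs.add ((hκs.comp_contDiffOn hgs).smul (pr I).contDiff.contDiffOn)
  have hdκ : ∀ x ∈ U, ‖fderiv ℝ κ (g x)‖ * ‖x‖ ≤ t / 24 := by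
    intro x hx
    have h1 := (hκ _ (hgW x hx)).2.2.le.trans (hδt _)
    calc ‖fderiv ℝ κ (g x)‖ * ‖x‖ ≤ t / (24 * R) * R :=
          mul_le_mul h1 (hR x hx) (norm_nonneg _) (by positivity)
      _ = t / 24 := by field_simp
  -- injectivity
  have hPi : ∀ x ∈ U, ∀ v, fderiv ℝ P x v = 0 → v = 0 := by
    intro x hx h hh
    rw [(hPd x hx).fderiv] at hh
    set v := fderiv ℝ g x h with hvd
    have h1' : v + (κ (g x) • pr I h + (fderiv ℝ κ (g x) v) • pr I x) = 0 := hh
    obtain ⟨hD, h6⟩ := hgm x hx h fun j hj => by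
      have h1 := congrFun h1' j
      simp only [Pi.add_apply, Pi.smul_apply, pr_apply, hj, if_false, smul_zero, add_zero] at h1
      exact h1
    have h1 : v + (κ (g x) • h + (fderiv ℝ κ (g x) v) • pr I x) = 0 := by
      rw [pr_mem hD] at h1'
      exact h1'
    set r : V := (fderiv ℝ κ (g x) v) • pr I x with hr
    have h2 : v = -(κ (g x) • h) - r := by
      have : v = -(κ (g x) • h + r) := eq_neg_of_add_eq_zero_left h1
      rw [this]; abel
    have hκp := (hκ _ (hgW x hx)).1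
    have h3 : ‖r‖ ≤ (1 / 24) * ‖v‖ := by
      rw [hr, norm_smul]
      calc ‖fderiv ℝ κ (g x) v‖ * ‖pr I x‖ ≤ (‖fderiv ℝ κ (g x)‖ * ‖v‖) * ‖x‖ := by
            gcongr
            · exact ContinuousLinearMap.le_opNorm _ _
            · exact pr_norm_le I x
        _ = (‖fderiv ℝ κ (g x)‖ * ‖x‖) * ‖v‖ := by ring
        _ ≤ (1 / 24) * ‖v‖ := by
            gcongr
            exact (hdκ x hx).trans (by linarith)
    have h4 : ‖v‖ ≤ κ (g x) * ‖h‖ + ‖r‖ := by
      rw [h2]
      refine (norm_sub_le _ _).trans ?_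
      rw [norm_neg, norm_smul, Real.norm_of_nonneg hκp.le]
    have h5 : ‖r‖ ≤ κ (g x) * ‖h‖ / 12 := by
      have := norm_nonneg r
      have := mul_nonneg hκp.le (norm_nonneg h)
      linarith
    have h7 : ∑ i, h i * v i = -(κ (g x) * ∑ i, h i ^ 2) - ∑ i, h i * r i := by
      rw [h2]
      simp only [Pi.sub_apply, Pi.neg_apply, Pi.smul_apply, smul_eq_mul, Finset.mul_sum,
        ← Finset.sum_neg_distrib, ← Finset.sum_sub_distrib]
      exact Finset.sum_congr rfl fun i _ => by ring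
    have h8 : ‖h‖ ^ 2 ≤ ∑ i, h i ^ 2 := by
      rcases (norm_nonneg h).eq_or_lt with h0 | h0
      · rw [← h0]
        exact (by norm_num : (0 : ℝ) ^ 2 = 0).le.trans
          (Finset.sum_nonneg fun i _ => sq_nonneg (h i))
      · obtain ⟨i, hi⟩ : ∃ i, ‖h i‖ = ‖h‖ := by
          obtain ⟨i, -, hi⟩ := Finset.exists_max_image (Finset.univ : Finset (Fin 3))
            (fun i => ‖h i‖) ⟨0, Finset.mem_univ _⟩
          refine ⟨i, le_antisymm (norm_le_pi_norm h i) ?_⟩
          exact (pi_norm_le_iff_of_nonneg (norm_nonneg _)).2 fun j => hi j (Finset.mem_univ _)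
        rw [← hi, Real.norm_eq_abs, sq_abs]
        exact Finset.single_le_sum (f := fun i => h i ^ 2) (fun i _ => sq_nonneg _)
          (Finset.mem_univ i)
    have h9 : |∑ i, h i * r i| ≤ 3 * (‖h‖ * ‖r‖) := by
      refine (Finset.abs_sum_le_sum_abs _ _).trans ?_
      calc ∑ i, |h i * r i| ≤ ∑ _i : Fin 3, ‖h‖ * ‖r‖ := by
            refine Finset.sum_le_sum fun i _ => ?_
            rw [abs_mul]
            exact mul_le_mul (norm_le_pi_norm h i) (norm_le_pi_norm r i) (abs_nonneg _)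
              (norm_nonneg _)
        _ = 3 * (‖h‖ * ‖r‖) := by simp
    rw [h7] at h6
    rw [abs_le] at h9
    have h10 : 3 * (‖h‖ * ‖r‖) ≤ κ (g x) * ‖h‖ ^ 2 / 4 := by
      have : ‖h‖ * ‖r‖ ≤ ‖h‖ * (κ (g x) * ‖h‖ / 12) := by gcongr
      calc 3 * (‖h‖ * ‖r‖) ≤ 3 * (‖h‖ * (κ (g x) * ‖h‖ / 12)) := by linarith
        _ = κ (g x) * ‖h‖ ^ 2 / 4 := by ring
    have h11 : κ (g x) * ‖h‖ ^ 2 ≤ κ (g x) * ∑ i, h i ^ 2 := by gcongr
    have h12 : e x * ‖h‖ ^ 2 ≤ κ (g x) / 3 * ‖h‖ ^ 2 := by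
      apply mul_le_mul_of_nonneg_right _ (sq_nonneg _)
      linarith [(hκg x hx).1]
    have h13 : κ (g x) * ‖h‖ ^ 2 ≤ 0 := by
      linarith [h9.1, h9.2]
    have h14 : ‖h‖ ^ 2 ≤ 0 := by
      by_contra hc
      push Not at hc
      have := mul_pos hκp hc
      linarith
    have h15 : ‖h‖ = 0 := by
      have := sq_nonneg ‖h‖
      exact pow_eq_zero_iff (two_ne_zero) |>.1 (le_antisymm h14 this)
    exact norm_eq_zero.1 h15
  have hPD : St.IsDiffeo U W P := hN P hPs hPi fun x hx =>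
    (hPf x hx).trans ((min_le_right _ _).trans (min_le_left _ _))
  -- the estimate
  have hpt : ∀ x ∈ U, ‖fderiv ℝ P x - cl (F x)‖ ≤
      2 * ‖fderiv ℝ g x - cl (F x)‖ + t * ‖cl (F x)‖ + t := by
    intro x hx
    rw [(hPd x hx).fderiv]
    have e1 : fderiv ℝ g x + (κ (g x) • pr I +
        ((fderiv ℝ κ (g x)).comp (fderiv ℝ g x)).smulRight (pr I x)) - cl (F x) =
        (fderiv ℝ g x - cl (F x)) + (κ (g x) • pr I +
        ((fderiv ℝ κ (g x)).comp (fderiv ℝ g x)).smulRight (pr I x)) := by abel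
    rw [e1]
    refine (norm_add_le _ _).trans ?_
    have e2 : ‖κ (g x) • pr I‖ ≤ t := by
      rw [norm_smul, Real.norm_of_nonneg (hκ _ (hgW x hx)).1.le]
      have h1 := (hκ _ (hgW x hx)).2.1.le.trans (hδt _)
      have h2 : ‖pr I‖ ≤ 1 := pr_op_le I
      have h3 := (hκ _ (hgW x hx)).1
      calc κ (g x) * ‖pr I‖ ≤ κ (g x) * 1 := by gcongr
        _ ≤ t := by linarith
    have e3 : ‖((fderiv ℝ κ (g x)).comp (fderiv ℝ g x)).smulRight (pr I x)‖ ≤
        t / 24 * (‖fderiv ℝ g x - cl (F x)‖ + ‖cl (F x)‖) := by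
      rw [ContinuousLinearMap.norm_smulRight_apply]
      have h1 : ‖fderiv ℝ g x‖ ≤ ‖fderiv ℝ g x - cl (F x)‖ + ‖cl (F x)‖ := by
        have := norm_add_le (fderiv ℝ g x - cl (F x)) (cl (F x))
        rwa [sub_add_cancel] at this
      calc ‖(fderiv ℝ κ (g x)).comp (fderiv ℝ g x)‖ * ‖pr I x‖
          ≤ (‖fderiv ℝ κ (g x)‖ * ‖fderiv ℝ g x‖) * ‖x‖ := by
            gcongr
            · exact ContinuousLinearMap.opNorm_comp_le _ _
            · exact pr_norm_le I x
        _ = (‖fderiv ℝ κ (g x)‖ * ‖x‖) * ‖fderiv ℝ g x‖ := by ring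
        _ ≤ _ := mul_le_mul (hdκ x hx) h1 (norm_nonneg _) (by positivity)
    have e4 := norm_add_le (κ (g x) • pr I)
      (((fderiv ℝ κ (g x)).comp (fderiv ℝ g x)).smulRight (pr I x))
    have e5 : t / 24 * (‖fderiv ℝ g x - cl (F x)‖ + ‖cl (F x)‖) ≤
        1 * ‖fderiv ℝ g x - cl (F x)‖ + t * ‖cl (F x)‖ := by
      rw [mul_add]
      apply add_le_add
      · apply mul_le_mul_of_nonneg_right _ (norm_nonneg _)
        linarith
      · apply mul_le_mul_of_nonneg_right _ (norm_nonneg _)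
        linarith
    linarith
  have hmF : AEMeasurable (fun x => ENNReal.ofReal (‖cl (F x)‖ ^ p)) (volume.restrict U) :=
    ((PK.IsSob.aesm hF).norm.aemeasurable.pow_const p).ennreal_ofReal
  have hEP : ∫⁻ x in U, ENNReal.ofReal (‖fderiv ℝ P x - cl (F x)‖ ^ p) ≤
      ENNReal.ofReal (3 ^ p) * (ENNReal.ofReal (2 ^ p) * ENNReal.ofReal t +
        ENNReal.ofReal (t ^ p) * EF + ENNReal.ofReal (t ^ p) * volume U) := by
    calc ∫⁻ x in U, ENNReal.ofReal (‖fderiv ℝ P x - cl (F x)‖ ^ p)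
        ≤ ∫⁻ x in U, ENNReal.ofReal (3 ^ p) *
            (ENNReal.ofReal (2 ^ p) * ENNReal.ofReal (‖fderiv ℝ g x - cl (F x)‖ ^ p) +
              ENNReal.ofReal (t ^ p) * ENNReal.ofReal (‖cl (F x)‖ ^ p) +
              ENNReal.ofReal (t ^ p)) := by
          refine setLIntegral_mono' hU.measurableSet fun x hx => ?_
          rw [← ENNReal.ofReal_mul (by positivity), ← ENNReal.ofReal_mul (by positivity),
            ← ENNReal.ofReal_add (by positivity) (by positivity),
            ← ENNReal.ofReal_add (by positivity) (by positivity),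
            ← ENNReal.ofReal_mul (by positivity)]
          apply ENNReal.ofReal_le_ofReal
          refine (Real.rpow_le_rpow (norm_nonneg _) (hpt x hx) hp0.le).trans ?_
          refine (rpow_add3_le hp (by positivity) (by positivity) ht.le).trans ?_
          rw [Real.mul_rpow (by norm_num) (norm_nonneg _), Real.mul_rpow ht.le (norm_nonneg _)]
      _ = ENNReal.ofReal (3 ^ p) * (ENNReal.ofReal (2 ^ p) *
            (∫⁻ x in U, ENNReal.ofReal (‖fderiv ℝ g x - cl (F x)‖ ^ p)) +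
              ENNReal.ofReal (t ^ p) * EF + ENNReal.ofReal (t ^ p) * volume U) := by
          rw [lintegral_const_mul' _ _ ENNReal.ofReal_ne_top,
            lintegral_add_right' _ aemeasurable_const,
            lintegral_add_right' _ (hmF.const_mul _),
            lintegral_const_mul' _ _ ENNReal.ofReal_ne_top,
            lintegral_const_mul' _ _ ENNReal.ofReal_ne_top, setLIntegral_const]
      _ ≤ _ := by gcongr
  refine ⟨P, hPD, fun x hx => (hPf x hx).trans ((min_le_left _ _).trans (min_le_left _ _)),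
    le_trans ?_ htε⟩
  unfold err
  refine add_le_add ?_ ?_
  · calc ∫⁻ x in U, ENNReal.ofReal (‖P x - f x‖ ^ p)
        ≤ ∫⁻ _x in U, ENNReal.ofReal (t ^ p) := by
          refine setLIntegral_mono' hU.measurableSet fun x hx => ?_
          exact ENNReal.ofReal_le_ofReal (Real.rpow_le_rpow (norm_nonneg _)
            ((hPf x hx).trans ((min_le_left _ _).trans (min_le_right _ _))) hp0.le)
      _ = ENNReal.ofReal (t ^ p) * volume U := setLIntegral_const _ _
  · calc ∑ j, ∫⁻ x in U, ENNReal.ofReal (‖fderiv ℝ P x (ev j) - cl (F x) (ev j)‖ ^ p)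
        ≤ ∑ _j : Fin 3, (ENNReal.ofReal (3 ^ p) * (ENNReal.ofReal (2 ^ p) * ENNReal.ofReal t +
            ENNReal.ofReal (t ^ p) * EF + ENNReal.ofReal (t ^ p) * volume U)) := by
          refine Finset.sum_le_sum fun j _ => le_trans (lintegral_mono fun x => ?_) hEP
          apply ENNReal.ofReal_le_ofReal
          apply Real.rpow_le_rpow (norm_nonneg _) _ hp0.le
          have h1 := ContinuousLinearMap.le_opNorm (fderiv ℝ P x - cl (F x)) (ev j)
          rw [hev, mul_one] at h1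
          exact h1
      _ = _ := by simp

/-- fibrewise monotone homeomorphisms of bounded domains are finely approximable -/
theorem fa_of_fib {I : Finset (Fin 3)} {p : ℝ} {Ω Λ : Set V} {f : V → V}
    {F : V → Mat} (hp : 1 ≤ p) (hΩ : St.IsBoundedDomain Ω) (hΛ : St.IsBoundedDomain Λ)
    (hf : St.IsHomeo Ω Λ f) (hF : St.IsSobolev p Ω f F) (hmon : FibMonotone I Ω f) :
    _root_.Vale.Agent.P073.H694.FA p Ω Λ f F := by
  have hΛc : Λᶜ.Nonempty := by
    rw [nonempty_compl]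
    rintro rfl
    exact NormedSpace.unbounded_univ ℝ V (PK.isBounded_of_domain hΛ)
  obtain ⟨k, ⟨hk1, hk2⟩, hfc, hkc⟩ := id hf
  have hbij : BijOn f Ω Λ :=
    ⟨fun x hx => (hk1 x hx).1, fun x hx y hy h => by
      rw [← (hk1 x hx).2, h, (hk1 y hy).2], fun y hy => ⟨k y, (hk2 y hy).1, (hk2 y hy).2⟩⟩
  obtain ⟨δ₀, h1, h2, h3⟩ := Vale.Agent.P073.exists_delta_diffeo hΩ.1 hΛ.1
    hΛ.2.1.isPreconnected hΛc hfc hkc hbij ⟨fun x hx => (hk1 x hx).2, fun y hy => (hk2 y hy).2⟩
  refine pert_of hp hΩ.1 (PK.isBounded_of_domain hΩ) hΛ.1 hΛc hf hF hmon h1 h2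
    fun g hg hgi hgf => ?_
  obtain ⟨hb, k', hk', hinv⟩ := h3 g hg hgi hgf
  refine ⟨k', ⟨fun x hx => ⟨hb.mapsTo hx, hinv.1 hx⟩, fun y hy => ?_⟩, contDiffOn_pi.1 hg,
    contDiffOn_pi.1 hk'⟩
  obtain ⟨x, hx, rfl⟩ := hb.surjOn hy
  have h4 : k' (g x) = x := hinv.1 hx
  rw [h4]
  exact ⟨hx, rfl⟩

end Vale.Agent.P073.R2.H580
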